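import Vale.Agent.P216.V775.Tower
import Vale.Agent.P216.V609.NRank

/-!
# P216-V, V4-TOW: towers over non-commutative algebras

`ND X`: a dga with a central morphism from the cdga `X`. `T.obj A`: the algebra `A ⟨e₁⟩ ⟨e₂⟩ …` over
`T.top` for a tower `T` over `X`. `T.inj : A → T.obj A`, `T.nlift` (universal property), `NMp`:
morphisms over a morphism of the bases, `T.nmap` (functoriality), transfer.
-/

universe u v w u' v'

namespace Vale.Agent.P216.V775

open Vale.Agent.P216.V609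

variable {k : Type w} [Field k]

/-- A dga over the cdga `X`. -/
structure ND (X : CD.{v} k) where
  A : Type u
  [rA : Ring A]
  [aA : Algebra k A]
  D : NDga k A
  ev : CHom X.C D

attribute [instance] ND.rA ND.aA

/-- a cdga over itself -/
def CD.nd (X : CD.{v} k) : ND.{v} X := ⟨X.A, X.C.toN, CHom.id X.C⟩

/-- a cdga over another one -/
def CD.Hm.nd {X : CD.{v} k} {Y : CD.{u} k} (φ : X.Hm Y) : ND.{u} X :=
  ⟨Y.A, Y.C.toN, (CHom.id Y.C).compBase φ⟩

variable {X : CD.{v} k} {Y : CD.{v'} k}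

/-- one extension -/
abbrev ND.ex (A : ND.{u} X) {l : ℕ} (hl : Odd l) {x : X.A} (hx : x ∈ X.C.deg (l + 1))
    (hdx : X.C.d x = 0) : ND.{u} (X.ex hl hx hdx) :=
  ⟨NEx k A.D, A.D.ex hl (A.ev.deg' hx) (A.ev.d_closed hdx) (A.ev.central_succ hl hx),
    A.ev.ex hl hx hdx⟩

/-- the inclusion -/
abbrev ND.inl (A : ND.{u} X) {l : ℕ} (hl : Odd l) {x : X.A} (hx : x ∈ X.C.deg (l + 1))
    (hdx : X.C.d x = 0) : NDga.Hom A.D (A.ex hl hx hdx).D :=
  A.D.inlHom hl (A.ev.deg' hx) (A.ev.d_closed hdx) (A.ev.central_succ hl hx)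

/-- the same algebra over another base -/
def ND.base (A : ND.{u} Y) (φ : X.Hm Y) : ND.{u} X := ⟨A.A, A.D, A.ev.compBase φ⟩

/-- Morphisms over a morphism of the bases. -/
structure NMp (φ : X.Hm Y) (A : ND.{u} X) (B : ND.{u'} Y) where
  g : NDga.Hom A.D B.D
  ev : ∀ a, g.f (A.ev.f a) = B.ev.f (φ.f a)

/-- one extension -/
def NMp.ex {φ : X.Hm Y} {A : ND.{u} X} {B : ND.{u'} Y} (g : NMp φ A B) {l : ℕ} (hl : Odd l)
    {x : X.A} (hx : x ∈ X.C.deg (l + 1)) (hdx : X.C.d x = 0) :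
    NMp (φ.ex hl hx hdx) (A.ex hl hx hdx) (B.ex hl (φ.deg hx) (φ.d_eq hdx)) where
  g := A.ev.exMap B.ev g.g hl hx hdx (φ.deg hx) (φ.d_eq hdx) (g.ev x)
  ev a := by
    ext
    · exact g.ev a.1
    · exact g.ev a.2

namespace Tw

/-- **The tower over a non-commutative algebra.** -/
def obj : {X : CD.{v} k} → (T : Tw X) → ND.{u} X → ND.{u} T.top
  | _, .nil _, A => A
  | _, .cons _ _ hl _ hx hdx T, A => T.obj (A.ex hl hx hdx)

/-- the inclusion -/
def inj : {X : CD.{v} k} → (T : Tw X) → (A : ND.{u} X) → NDga.Hom A.D (T.obj A).D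
  | _, .nil _, A => NDga.Hom.id A.D
  | _, .cons _ _ hl _ hx hdx T, A => (T.inj (A.ex hl hx hdx)).comp (A.inl hl hx hdx)

theorem ev_inc {X : CD.{v} k} (T : Tw X) (A : ND.{u} X) (a : X.A) :
    (T.obj A).ev.f (T.inc.f a) = (T.inj A).f (A.ev.f a) := by
  induction T with
  | nil X => rfl
  | cons X l hl x hx hdx T ih =>
    refine (ih (A.ex hl hx hdx) (Ex.inl X.C a)).trans ?_
    show (T.inj (A.ex hl hx hdx)).f _ = (T.inj (A.ex hl hx hdx)).f _
    congr 1
    ext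
    · rfl
    · exact map_zero _

/-- the inclusion as a morphism over the inclusion of the base -/
def injM {X : CD.{v} k} (T : Tw X) (A : ND.{u} X) : NMp T.inc A (T.obj A) :=
  ⟨T.inj A, fun a => (T.ev_inc A a).symm⟩

/-- **Functoriality.** -/
def nmap : {X : CD.{v} k} → (T : Tw X) → {Y : CD.{v'} k} → {φ : X.Hm Y} → {A : ND.{u} X} →
    {B : ND.{u'} Y} → NMp φ A B → NMp (T.map φ) (T.obj A) ((T.push φ).obj B)
  | _, .nil _, _, _, _, _, g => g
  | _, .cons _ _ hl _ hx hdx T, _, _, _, _, g => T.nmap (g.ex hl hx hdx)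

theorem nmap_inj {X : CD.{v} k} (T : Tw X) {Y : CD.{v'} k} {φ : X.Hm Y} {A : ND.{u} X}
    {B : ND.{u'} Y} (g : NMp φ A B) (a : A.A) :
    (T.nmap g).g.f ((T.inj A).f a) = ((T.push φ).inj B).f (g.g.f a) := by
  induction T generalizing Y with
  | nil X => rfl
  | cons X l hl x hx hdx T ih =>
    refine (ih (g.ex hl hx hdx) (NEx.inl A.D a)).trans ?_
    show ((T.push (φ.ex hl hx hdx)).inj (B.ex hl (φ.deg hx) (φ.d_eq hdx))).f _ =
      ((T.push (φ.ex hl hx hdx)).inj (B.ex hl (φ.deg hx) (φ.d_eq hdx))).f _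
    congr 1
    ext
    · rfl
    · exact map_zero _

/-- **Transfer.** -/
theorem nmap_rec (R : ∀ {X : CD.{v} k} {Y : CD.{v'} k} {φ : X.Hm Y} {A : ND.{u} X}
      {B : ND.{u'} Y}, NMp φ A B → Prop)
    (hR : ∀ (X : CD.{v} k) (Y : CD.{v'} k) (φ : X.Hm Y) (A : ND.{u} X) (B : ND.{u'} Y)
      (g : NMp φ A B) (l : ℕ) (hl : Odd l) (x : X.A) (hx : x ∈ X.C.deg (l + 1))
      (hdx : X.C.d x = 0), R g → R (g.ex hl hx hdx))
    {X : CD.{v} k} (T : Tw X) {Y : CD.{v'} k} {φ : X.Hm Y} {A : ND.{u} X} {B : ND.{u'} Y}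
    (g : NMp φ A B) (h : R g) : R (T.nmap g) := by
  induction T generalizing Y with
  | nil X => exact h
  | cons X l hl x hx hdx T ih => exact ih (g.ex hl hx hdx) (hR X Y φ A B g l hl x hx hdx h)

/-- transfer for algebras -/
theorem obj_rec (R : ∀ {X : CD.{v} k}, ND.{u} X → Prop) (hR : ∀ (X : CD.{v} k) (A : ND.{u} X)
      (l : ℕ) (hl : Odd l) (x : X.A) (hx : x ∈ X.C.deg (l + 1)) (hdx : X.C.d x = 0),
      R A → R (A.ex hl hx hdx)) {X : CD.{v} k} (T : Tw X) (A : ND.{u} X) (h : R A) :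
    R (T.obj A) := by
  induction T with
  | nil X => exact h
  | cons X l hl x hx hdx T ih => exact ih (A.ex hl hx hdx) (hR X A l hl x hx hdx h)

/-- **Universal property**: `B` over `Y`, a morphism `ψ : T.top → Y` and a morphism `A → B` over
the restriction of `ψ` to `X`. -/
theorem exists_nlift (h2 : (2 : k) ≠ 0) {X : CD.{v} k} (T : Tw X) {Y : CD.{v'} k}
    (ψ : T.top.Hm Y) {A : ND.{u} X} {B : ND.{u'} Y} (g : NDga.Hom A.D B.D)
    (hg : ∀ a, g.f (A.ev.f a) = B.ev.f (ψ.f (T.inc.f a))) :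
    ∃ g' : NMp ψ (T.obj A) B, ∀ a, g'.g.f ((T.inj A).f a) = g.f a := by
  induction T with
  | nil X => exact ⟨⟨g, hg⟩, fun _ => rfl⟩
  | cons X l hl x hx hdx T ih =>
    have e1 : (X.C.ex hl hx hdx).d (Ex.e X.C) = Ex.inl X.C x := X.C.d_e hl hx hdx
    have h1 : B.ev.f (Y.C.d (ψ.f (T.inc.f (Ex.e X.C)))) = g.f (A.ev.f x) := by
      rw [hg]
      congr 1
      have h3 : Y.C.d (ψ.f (T.inc.f (Ex.e X.C))) = ψ.f (T.inc.f ((X.C.ex hl hx hdx).d
          (Ex.e X.C))) := ((congrArg ψ.f (T.inc.d (Ex.e X.C))).trans (ψ.d _)).symm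
      rw [h3, e1]
      rfl
    obtain ⟨g', h4⟩ := ih ψ (A := A.ex hl hx hdx) (A.ev.exLift B.ev g h2 hl hx hdx
      (ψ.deg (T.inc.deg (X.C.e_mem hl hx hdx))) h1) (fun a => by
        show g.f (A.ev.f a.1) + g.f (A.ev.f a.2) * B.ev.f (ψ.f (T.inc.f (Ex.e X.C))) = _
        rw [hg, hg, ← map_mul, ← map_add]
        congr 1
        have h5 : ψ.f (T.inc.f a) = ψ.f (T.inc.f (Ex.inl X.C a.1)) +
            ψ.f (T.inc.f (Ex.inl X.C a.2)) * ψ.f (T.inc.f (Ex.e X.C)) := by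
          conv_lhs => rw [Ex.eq_inl_add a, map_add, map_mul]
          exact (map_add ψ.f _ _).trans (congrArg _ (map_mul ψ.f _ _))
        exact h5.symm)
    refine ⟨g', fun a => (h4 _).trans ?_⟩
    show g.f a + g.f 0 * _ = g.f a
    rw [map_zero, zero_mul, add_zero]

/-- **Uniqueness.** -/
theorem nlift_unique {X : CD.{v} k} (T : Tw X) {A : ND.{u} X} {B : Type u'} [Ring B] [Algebra k B]
    {D : NDga k B} {g g' : NDga.Hom (T.obj A).D D}
    (h1 : ∀ a, g.f ((T.inj A).f a) = g'.f ((T.inj A).f a))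
    (h2 : ∀ a, g.f ((T.obj A).ev.f a) = g'.f ((T.obj A).ev.f a)) (a : (T.obj A).A) :
    g.f a = g'.f a := by
  induction T with
  | nil X => exact h1 a
  | cons X l hl x hx hdx T ih =>
    refine ih (A := A.ex hl hx hdx) (g := g) (g' := g') (fun b => ?_) h2 a
    have h3 : (T.obj (A.ex hl hx hdx)).ev.f (T.inc.f (Ex.e X.C)) =
        (T.inj (A.ex hl hx hdx)).f (NEx.e A.D) := by
      rw [T.ev_inc]
      congr 1
      ext
      · exact map_zero _
      · exact map_one _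
    have h4 : ∀ χ : NDga.Hom (T.obj (A.ex hl hx hdx)).D D,
        χ.f ((T.inj (A.ex hl hx hdx)).f b) =
          χ.f ((T.inj (A.ex hl hx hdx)).f (NEx.inl _ b.1)) +
          χ.f ((T.inj (A.ex hl hx hdx)).f (NEx.inl _ b.2)) *
            χ.f ((T.obj (A.ex hl hx hdx)).ev.f (T.inc.f (Ex.e X.C))) := fun χ => by
      conv_lhs => rw [NEx.eq_inl_add b, map_add, map_mul, map_add, map_mul]
      rw [h3]
    refine (h4 g).trans (Eq.trans ?_ (h4 g').symm)
    exact congrArg₂ (· + ·) (h1 b.1) (congrArg₂ (· * ·) (h1 b.2) (h2 _))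

end Tw

/-! ### Morphisms over the base -/

/-- Morphisms over the base. -/
structure NMo (A : ND.{u} X) (B : ND.{u'} X) where
  g : NDga.Hom A.D B.D
  ev : ∀ a, g.f (A.ev.f a) = B.ev.f a

/-- one extension -/
def NMo.ex {A : ND.{u} X} {B : ND.{u'} X} (g : NMo A B) {l : ℕ} (hl : Odd l) {x : X.A}
    (hx : x ∈ X.C.deg (l + 1)) (hdx : X.C.d x = 0) : NMo (A.ex hl hx hdx) (B.ex hl hx hdx) where
  g := A.ev.exMap B.ev g.g hl hx hdx hx hdx (g.ev x)
  ev a := NEx.ext (g.ev a.1) (g.ev a.2)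

namespace Tw

/-- **Functoriality over the base.** -/
def omap : {X : CD.{v} k} → (T : Tw X) → {A : ND.{u} X} → {B : ND.{u'} X} → NMo A B →
    NMo (T.obj A) (T.obj B)
  | _, .nil _, _, _, g => g
  | _, .cons _ _ hl _ hx hdx T, _, _, g => T.omap (g.ex hl hx hdx)

theorem omap_inj {X : CD.{v} k} (T : Tw X) {A : ND.{u} X} {B : ND.{u'} X} (g : NMo A B)
    (a : A.A) : (T.omap g).g.f ((T.inj A).f a) = (T.inj B).f (g.g.f a) := by
  induction T with
  | nil X => rfl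
  | cons X l hl x hx hdx T ih =>
    refine (ih (g.ex hl hx hdx) (NEx.inl A.D a)).trans ?_
    exact congrArg (T.inj (B.ex hl hx hdx)).f (NEx.ext rfl (map_zero _))

theorem omap_comp {X : CD.{v} k} (T : Tw X) {A B C : ND.{u} X} {g : NMo A B}
    {g' : NMo B C} {g'' : NMo A C} (h : ∀ a, g'.g.f (g.g.f a) = g''.g.f a) (a : (T.obj A).A) :
    (T.omap g').g.f ((T.omap g).g.f a) = (T.omap g'').g.f a := by
  induction T with
  | nil X => exact h a
  | cons X l hl x hx hdx T ih =>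
    exact ih (g := g.ex hl hx hdx) (g' := g'.ex hl hx hdx) (g'' := g''.ex hl hx hdx)
      (fun b => NEx.ext (h b.1) (h b.2)) a

/-- **Transfer.** -/
theorem omap_rec (R : ∀ {X : CD.{v} k} {A : ND.{u} X} {B : ND.{u'} X}, NMo A B → Prop)
    (hR : ∀ (X : CD.{v} k) (A : ND.{u} X) (B : ND.{u'} X) (g : NMo A B) (l : ℕ) (hl : Odd l)
      (x : X.A) (hx : x ∈ X.C.deg (l + 1)) (hdx : X.C.d x = 0), R g → R (g.ex hl hx hdx))
    {X : CD.{v} k} (T : Tw X) {A : ND.{u} X} {B : ND.{u'} X} (g : NMo A B) (h : R g) :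
    R (T.omap g) := by
  induction T with
  | nil X => exact h
  | cons X l hl x hx hdx T ih => exact ih (g.ex hl hx hdx) (hR X A B g l hl x hx hdx h)

end Tw

/-! ### Systems over a base -/

/-- A system of dgas over the base `X`. -/
structure NSysO (X : CD.{v} k) where
  Y : ℝ → ND.{u} X
  ρ : ∀ s t, t ≤ s → NMo (Y s) (Y t)
  ρ_ρ : ∀ s t r h h' a, (ρ t r h').g.f ((ρ s t h).g.f a) = (ρ s r (h'.trans h)).g.f a

namespace NSysO

/-- 609's system -/
def toNSys (S : NSysO.{u} X) : NSys k where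
  M := X.A
  CM := X.C
  A t := (S.Y t).A
  C t := (S.Y t).D
  ev t := (S.Y t).ev
  ρ s t h := (S.ρ s t h).g
  ρ_ev s t h a := (S.ρ s t h).ev a
  ρ_ρ := S.ρ_ρ

/-- one extension of the system -/
def ex (S : NSysO.{u} X) {l : ℕ} (hl : Odd l) {x : X.A} (hx : x ∈ X.C.deg (l + 1))
    (hdx : X.C.d x = 0) : NSysO.{u} (X.ex hl hx hdx) where
  Y t := (S.Y t).ex hl hx hdx
  ρ s t h := (S.ρ s t h).ex hl hx hdx
  ρ_ρ s t u h h' a := NEx.ext (S.ρ_ρ s t u h h' a.1) (S.ρ_ρ s t u h h' a.2)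

/-- **The system over the top of a tower**: `t ↦ T.obj (S.Y t)`. -/
def tw {X : CD.{v} k} (T : Tw X) (S : NSysO.{u} X) : NSysO.{u} T.top where
  Y t := T.obj (S.Y t)
  ρ s t h := T.omap (S.ρ s t h)
  ρ_ρ s t r h h' a := T.omap_comp (S.ρ_ρ s t r h h') a

@[simp] theorem tw_Y {X : CD.{v} k} (T : Tw X) (S : NSysO.{u} X) (t : ℝ) :
    (tw T S).Y t = T.obj (S.Y t) := rfl

/-- **Linear growth passes to towers.** -/
theorem linBd_tw {X : CD.{v} k} (T : Tw X) (S : NSysO.{u} X) (h : S.toNSys.LinBd) :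
    (tw T S).toNSys.LinBd := by
  induction T with
  | nil X => exact h
  | cons X l hl x hx hdx T ih => exact ih (S.ex hl hx hdx) (h.ext hl hx hdx)

end NSysO

end Vale.Agent.P216.V775
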