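import Vale.Agent.P216.V775.Kos
import Vale.Agent.P216.V775.NTower

/-!
# P216-V, C3 (abstract half): the classes `α`, `β`

`HX`: the bases `X` (forms on `M`), `X₂` (on `M × M`), `Xb` (on a point), the algebras `PP`, `MM`,
`FL`, `PF`, `Om` over them and the restrictions. `W` = `X₂ ⟨e⟩ ⟨e'⟩`. `Good T ê ŷ n`: the properties of
the closed elements `ŷ ∈ X ⟨e⟩`. `HX.main`: `ŷ(e) - ŷ(e')` is exact over the free paths; the
restrictions `α` (free loops, `e' = e`), `β` (paths ending at `b`, `e' = 0`) of the primitive.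
-/

universe u v w'

set_option linter.unusedSectionVars false
set_option linter.checkUnivs false

open MvPolynomial Finset

namespace Vale.Agent.P216.V775

open Vale.Agent.P216.V609

variable {k : Type w'} [Field k] {σ : Type} [Fintype σ] {w : σ → ℕ}

/-- The properties of the closed elements `ŷ ∈ X ⟨e⟩`. -/
structure Good {X : CD.{v} k} (T : Tw X) (ê : σ → T.top.A) (ŷ : T.top.A) (n : ℕ) : Prop where
  mem : ŷ ∈ T.top.C.deg (2 * n + 1)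
  closed : T.top.C.d ŷ = 0
  two : ∀ (Y : CD.{v} k) (φ φ' : T.top.Hm Y), (∀ a, φ.f (T.inc.f a) = φ'.f (T.inc.f a)) →
    φ.f ŷ - φ'.f ŷ ∈ Y.C.B (2 * n + 1)
  van : ∀ (Y : CD.{v} k) (φ : T.top.Hm Y),
    (∀ p a, a ∈ X.C.deg (p + 1) → φ.f (T.inc.f a) = 0) → (∀ j, φ.f (ê j) = 0) → φ.f ŷ = 0

/-- The data. -/
structure HX (k : Type w') [Field k] where
  X : CD.{v} k
  X₂ : CD.{v} k
  Xb : CD.{v} k
  pr₀ : X.Hm X₂
  pr₁ : X.Hm X₂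
  diag : X₂.Hm X
  ptb : X₂.Hm X
  ε : X.Hm Xb
  diag_pr₀ : ∀ a, diag.f (pr₀.f a) = a
  diag_pr₁ : ∀ a, diag.f (pr₁.f a) = a
  ptb_pr₀ : ∀ a, ptb.f (pr₀.f a) = a
  ptb_pr₁ : ∀ p a, a ∈ X.C.deg (p + 1) → ptb.f (pr₁.f a) = 0
  ε_van : ∀ p a, a ∈ X.C.deg (p + 1) → ε.f a = 0
  ε_eq : ∀ a, ε.f (diag.f a) = ε.f (ptb.f a)
  PP : ND.{u} X₂
  MM : ND.{u} X
  FL : ND.{u} X
  PF : ND.{u} X
  Om : ND.{u} Xb
  cst : NMp diag PP MM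
  rFL : NMp diag PP FL
  rPF : NMp ptb PP PF
  oFL : NMp ε FL Om
  oPF : NMp ε PF Om
  o_eq : ∀ a, oFL.g.f (rFL.g.f a) = oPF.g.f (rPF.g.f a)

section

variable [DecidableEq σ] {f : ℕ} {Q : σ → MvPolynomial σ k} {q : σ → σ → MvPolynomial σ k}

/-- the zero solution -/
theorem solOn_zero {X : CD.{v} k} {Y : CD.{v} k} (hq : QD w f Q q) (S : KS X w f Q) (φ : X.Hm Y)
    (h : ∀ p a, a ∈ X.C.deg (p + 1) → φ.f a = 0) : SolOn (S.map φ) q univ (0 : σ → Y.A) := by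
  refine ⟨fun j _ => Submodule.zero_mem _, fun j _ => ?_⟩
  have h1 : φ.f (S.x j) = 0 := h (2 * w j - 1) _ (by
    have := hq.pos j
    rw [show 2 * w j - 1 + 1 = 2 * w j by omega]
    exact S.hx j)
  unfold KS.att
  rw [Pi.zero_apply, map_zero]
  show 0 = φ.f (S.x j) + _
  rw [h1, zero_add]
  simp

/-- the augmentation of the tower -/
theorem exists_aug {X : CD.{v} k} {S : KS X w f Q} {T : Tw X} {ê : σ → T.top.A}
    (hq : QD w f Q q) (h : KTw q S ∅ 0 T ê) {Y : CD.{v} k} (ε : X.Hm Y)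
    (hε : ∀ p a, a ∈ X.C.deg (p + 1) → ε.f a = 0) :
    ∃ ω : T.top.Hm Y, (∀ a, ω.f (T.inc.f a) = ε.f a) ∧ ∀ j, ω.f (ê j) = 0 :=
  h.lift₀ hq ε (solOn_zero hq S ε hε)

end

namespace HX

variable (H : HX.{u, v} k) (T : Tw H.X)

/-- first tower -/
def T₀ : Tw H.X₂ := T.push H.pr₀

/-- second tower -/
def T₁ : Tw (H.T₀ T).top := T.push ((H.T₀ T).inc.comp H.pr₁)

/-- `X₂ ⟨e⟩ ⟨e'⟩` -/
abbrev W : CD.{v} k := (H.T₁ T).top

/-- the inclusion of `X₂` -/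
def incW : H.X₂.Hm (H.W T) := (H.T₁ T).inc.comp (H.T₀ T).inc

/-- first copy of `X ⟨e⟩` -/
def ι₀ : T.top.Hm (H.W T) := (H.T₁ T).inc.comp (T.map H.pr₀)

/-- second copy of `X ⟨e⟩` -/
def ι₁ : T.top.Hm (H.W T) := T.map ((H.T₀ T).inc.comp H.pr₁)

theorem ι₀_inc (a : H.X.A) : (H.ι₀ T).f (T.inc.f a) = (H.incW T).f (H.pr₀.f a) :=
  congrArg (H.T₁ T).inc.f (T.map_inc H.pr₀ a)

theorem ι₁_inc (a : H.X.A) : (H.ι₁ T).f (T.inc.f a) = (H.incW T).f (H.pr₁.f a) :=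
  T.map_inc ((H.T₀ T).inc.comp H.pr₁) a

/-- `PP ⟨e⟩ ⟨e'⟩` -/
abbrev PPh : ND.{u} (H.W T) := (H.T₁ T).obj ((H.T₀ T).obj H.PP)

/-- the inclusion of `PP` -/
def injP : NDga.Hom H.PP.D (H.PPh T).D := ((H.T₁ T).inj _).comp ((H.T₀ T).inj H.PP)

theorem ev_incW (a : H.X₂.A) :
    (H.PPh T).ev.f ((H.incW T).f a) = (H.injP T).f (H.PP.ev.f a) :=
  ((H.T₁ T).ev_inc _ _).trans (congrArg ((H.T₁ T).inj _).f ((H.T₀ T).ev_inc _ _))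

/-- the extension of `cst` -/
def cstW : NMp ((H.T₁ T).map ((H.T₀ T).map H.diag)) (H.PPh T)
    (((H.T₁ T).push ((H.T₀ T).map H.diag)).obj (((H.T₀ T).push H.diag).obj H.MM)) :=
  (H.T₁ T).nmap ((H.T₀ T).nmap H.cst)

variable {H T}

/-- universal property of `PP ⟨e⟩ ⟨e'⟩` -/
theorem nliftW (h2 : (2 : k) ≠ 0) {Y : CD.{v} k} (ψ : (H.W T).Hm Y) {B : ND.{u} Y}
    (g : NDga.Hom H.PP.D B.D) (hg : ∀ a, g.f (H.PP.ev.f a) = B.ev.f (ψ.f ((H.incW T).f a))) :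
    ∃ g' : NMp ψ (H.PPh T) B, ∀ a, g'.g.f ((H.injP T).f a) = g.f a := by
  obtain ⟨g₀, h₀⟩ := (H.T₀ T).exists_nlift h2 (ψ.comp (H.T₁ T).inc) g hg
  obtain ⟨g₁, h₁⟩ := (H.T₁ T).exists_nlift h2 ψ g₀.g g₀.ev
  exact ⟨g₁, fun a => (h₁ _).trans (h₀ a)⟩

theorem nuniqW {B : Type u} [Ring B] [Algebra k B] {D : NDga k B}
    {g g' : NDga.Hom (H.PPh T).D D}
    (h1 : ∀ a, g.f ((H.injP T).f a) = g'.f ((H.injP T).f a))
    (h2 : ∀ a, g.f ((H.PPh T).ev.f a) = g'.f ((H.PPh T).ev.f a)) (a : (H.PPh T).A) :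
    g.f a = g'.f a := by
  refine (H.T₁ T).nlift_unique (fun b => ?_) h2 a
  refine (H.T₀ T).nlift_unique (g := g.comp ((H.T₁ T).inj _)) (g' := g'.comp ((H.T₁ T).inj _))
    h1 (fun c => ?_) b
  have h3 := (H.T₁ T).ev_inc ((H.T₀ T).obj H.PP) c
  show g.f (((H.T₁ T).inj _).f _) = g'.f (((H.T₁ T).inj _).f _)
  rw [← h3]
  exact h2 _

variable [DecidableEq σ] {f : ℕ} {Q : σ → MvPolynomial σ k} {q : σ → σ → MvPolynomial σ k}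
  {S : KS H.X w f Q} {ê : σ → T.top.A}

/-- universal property of `W` -/
theorem liftW (hq : QD w f Q q) (h : KTw q S ∅ 0 T ê) {Y : CD.{v} k} (φ : H.X₂.Hm Y)
    {u₀ u₁ : σ → Y.A} (hu₀ : SolOn ((S.map H.pr₀).map φ) q univ u₀)
    (hu₁ : SolOn ((S.map H.pr₁).map φ) q univ u₁) :
    ∃ ψ : (H.W T).Hm Y, (∀ a, ψ.f ((H.incW T).f a) = φ.f a) ∧
      (∀ j, ψ.f ((H.ι₀ T).f (ê j)) = u₀ j) ∧ ∀ j, ψ.f ((H.ι₁ T).f (ê j)) = u₁ j := by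
  obtain ⟨φ₀, h1, h2⟩ := (h.push₀ H.pr₀).lift₀ hq φ hu₀
  have e1 : (S.map ((H.T₀ T).inc.comp H.pr₁)).map φ₀ = (S.map H.pr₁).map φ :=
    KS.ext' (fun i => h1 _) (h1 _)
  obtain ⟨ψ, h3, h4⟩ := (h.push₀ ((H.T₀ T).inc.comp H.pr₁)).lift₀ hq φ₀ (u := u₁)
    (by rw [e1]; exact hu₁)
  exact ⟨ψ, fun a => (h3 _).trans (h1 a), fun j => (h3 _).trans (h2 j), h4⟩

theorem uniqW (h : KTw q S ∅ 0 T ê) {Y : CD.{v} k} {ψ ψ' : (H.W T).Hm Y}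
    (h1 : ∀ a, ψ.f ((H.incW T).f a) = ψ'.f ((H.incW T).f a))
    (h2 : ∀ j, ψ.f ((H.ι₀ T).f (ê j)) = ψ'.f ((H.ι₀ T).f (ê j)))
    (h3 : ∀ j, ψ.f ((H.ι₁ T).f (ê j)) = ψ'.f ((H.ι₁ T).f (ê j))) (a : (H.W T).A) :
    ψ.f a = ψ'.f a := by
  refine (h.push₀ ((H.T₀ T).inc.comp H.pr₁)).lift_unique (fun b => ?_) h3 a
  exact (h.push₀ H.pr₀).lift_unique (φ := ψ.comp (H.T₁ T).inc) (ψ := ψ'.comp (H.T₁ T).inc)
    h1 h2 b

/-- **C3, abstract half.** -/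
theorem main (hq : QD w f Q q) (h : KTw q S ∅ 0 T ê)
    (hinj : ∀ n a, a ∈ (H.PPh T).D.Z n → (H.cstW T).g.f a ∈
      (((H.T₁ T).push ((H.T₀ T).map H.diag)).obj (((H.T₀ T).push H.diag).obj H.MM)).D.B n →
        a ∈ (H.PPh T).D.B n)
    {ω : T.top.Hm H.Xb} (hω : ∀ a, ω.f (T.inc.f a) = H.ε.f a) (hω0 : ∀ j, ω.f (ê j) = 0)
    (oFL : NMp ω (T.obj H.FL) H.Om)
    (hoFL : ∀ a, oFL.g.f ((T.inj H.FL).f a) = H.oFL.g.f a)
    (oPF : NMp ω (T.obj H.PF) H.Om)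
    (hoPF : ∀ a, oPF.g.f ((T.inj H.PF).f a) = H.oPF.g.f a)
    {ŷ : T.top.A} {n : ℕ} (hy : Good T ê ŷ n) :
    ∃ α ∈ (T.obj H.FL).D.Z (2 * n), ∃ β ∈ (T.obj H.PF).D.deg (2 * n),
      (T.obj H.PF).D.d β = (T.obj H.PF).ev.f ŷ ∧ oFL.g.f α = oPF.g.f β := by
  -- the element `z`
  set z : (H.W T).A := (H.ι₀ T).f ŷ - (H.ι₁ T).f ŷ with hz
  have hz1 : z ∈ (H.W T).C.deg (2 * n + 1) :=
    Submodule.sub_mem _ ((H.ι₀ T).deg hy.mem) ((H.ι₁ T).deg hy.mem)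
  have hz2 : (H.W T).C.d z = 0 := by
    rw [hz, map_sub, CD.Hm.d_eq (H.ι₀ T) hy.closed, CD.Hm.d_eq (H.ι₁ T) hy.closed, sub_zero]
  -- exactness
  have hz3 : (H.PPh T).ev.f z ∈ (H.PPh T).D.B (2 * n + 1) := by
    refine hinj _ _ ⟨(H.PPh T).ev.deg' hz1, (H.PPh T).ev.d_closed hz2⟩ ?_
    rw [(H.cstW T).ev]
    have h1 := hy.two _ (((H.T₁ T).map ((H.T₀ T).map H.diag)).comp (H.ι₀ T))
      (((H.T₁ T).map ((H.T₀ T).map H.diag)).comp (H.ι₁ T)) (fun a => by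
        have e1 : ∀ b : H.X₂.A, ((H.T₁ T).map ((H.T₀ T).map H.diag)).f ((H.incW T).f b) =
            ((H.T₁ T).push ((H.T₀ T).map H.diag)).inc.f
              (((H.T₀ T).push H.diag).inc.f (H.diag.f b)) := fun b =>
          ((H.T₁ T).map_inc _ _).trans (congrArg _ ((H.T₀ T).map_inc _ _))
        show ((H.T₁ T).map ((H.T₀ T).map H.diag)).f ((H.ι₀ T).f (T.inc.f a)) =
          ((H.T₁ T).map ((H.T₀ T).map H.diag)).f ((H.ι₁ T).f (T.inc.f a))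
        rw [H.ι₀_inc, H.ι₁_inc, e1, e1, H.diag_pr₀, H.diag_pr₁])
    have h2 : ((H.T₁ T).map ((H.T₀ T).map H.diag)).f z ∈
        ((H.T₁ T).push ((H.T₀ T).map H.diag)).top.C.B (2 * n + 1) := by
      rw [hz, map_sub]
      exact h1
    exact (NDga.Hom.map_B (CHom.toHom (((H.T₁ T).push ((H.T₀ T).map H.diag)).obj
      (((H.T₀ T).push H.diag).obj H.MM)).ev) h2)
  obtain ⟨A, hA, hdA⟩ := hz3
  -- free loops
  have hsol : SolOn (S.map T.inc) q univ ê := h.sol₀ hq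
  have e0 : (S.map H.pr₀).map (T.inc.comp H.diag) = S.map T.inc :=
    KS.ext' (fun i => congrArg T.inc.f (H.diag_pr₀ _)) (congrArg T.inc.f (H.diag_pr₀ _))
  have e1 : (S.map H.pr₁).map (T.inc.comp H.diag) = S.map T.inc :=
    KS.ext' (fun i => congrArg T.inc.f (H.diag_pr₁ _)) (congrArg T.inc.f (H.diag_pr₁ _))
  obtain ⟨ψ, p1, p2, p3⟩ := liftW hq h (T.inc.comp H.diag) (u₀ := ê) (u₁ := ê)
    (by rw [e0]; exact hsol) (by rw [e1]; exact hsol)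
  obtain ⟨rF, hrF⟩ := nliftW hq.two ψ (B := T.obj H.FL) ((T.inj H.FL).comp H.rFL.g) (fun a => by
    rw [p1]
    exact (congrArg (T.inj H.FL).f (H.rFL.ev a)).trans (T.ev_inc _ _).symm)
  have q0 : ∀ a, ψ.f ((H.ι₀ T).f a) = a := fun a =>
    h.lift_unique (φ := ψ.comp (H.ι₀ T)) (ψ := Cdga.Hom.id _) (fun b => by
      show ψ.f ((H.ι₀ T).f (T.inc.f b)) = T.inc.f b
      rw [H.ι₀_inc, p1]
      exact congrArg T.inc.f (H.diag_pr₀ b)) p2 a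
  have q1 : ∀ a, ψ.f ((H.ι₁ T).f a) = a := fun a =>
    h.lift_unique (φ := ψ.comp (H.ι₁ T)) (ψ := Cdga.Hom.id _) (fun b => by
      show ψ.f ((H.ι₁ T).f (T.inc.f b)) = T.inc.f b
      rw [H.ι₁_inc, p1]
      exact congrArg T.inc.f (H.diag_pr₁ b)) p3 a
  -- paths ending at `b`
  have e2 : (S.map H.pr₀).map (T.inc.comp H.ptb) = S.map T.inc :=
    KS.ext' (fun i => congrArg T.inc.f (H.ptb_pr₀ _)) (congrArg T.inc.f (H.ptb_pr₀ _))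
  have v1 : ∀ p a, a ∈ H.X.C.deg (p + 1) → T.inc.f (H.ptb.f (H.pr₁.f a)) = 0 := fun p a ha => by
    rw [H.ptb_pr₁ p a ha, map_zero]
  obtain ⟨χ, r1, r2, r3⟩ := liftW hq h (T.inc.comp H.ptb) (u₀ := ê) (u₁ := 0)
    (by rw [e2]; exact hsol) (solOn_zero hq S ((T.inc.comp H.ptb).comp H.pr₁) v1)
  obtain ⟨rP, hrP⟩ := nliftW hq.two χ (B := T.obj H.PF) ((T.inj H.PF).comp H.rPF.g) (fun a => by
    rw [r1]
    exact (congrArg (T.inj H.PF).f (H.rPF.ev a)).trans (T.ev_inc _ _).symm)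
  have s0 : ∀ a, χ.f ((H.ι₀ T).f a) = a := fun a =>
    h.lift_unique (φ := χ.comp (H.ι₀ T)) (ψ := Cdga.Hom.id _) (fun b => by
      show χ.f ((H.ι₀ T).f (T.inc.f b)) = T.inc.f b
      rw [H.ι₀_inc, r1]
      exact congrArg T.inc.f (H.ptb_pr₀ b)) r2 a
  have s1 : χ.f ((H.ι₁ T).f ŷ) = 0 :=
    hy.van _ (χ.comp (H.ι₁ T)) (fun p a ha => by
      show χ.f ((H.ι₁ T).f (T.inc.f a)) = 0
      rw [H.ι₁_inc, r1]
      exact v1 p a ha) r3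
  refine ⟨rF.g.f A, ⟨rF.g.deg hA, ?_⟩, rP.g.f A, rP.g.deg hA, ?_, ?_⟩
  · show (T.obj H.FL).D.d (rF.g.f A) = 0
    rw [← rF.g.d, hdA, rF.ev, hz, map_sub, q0, q1, sub_self, map_zero]
  · rw [← rP.g.d, hdA, rP.ev, hz, map_sub, s0, s1, sub_zero]
  · refine nuniqW (g := oFL.g.comp rF.g) (g' := oPF.g.comp rP.g) (fun a => ?_) (fun a => ?_) A
    · show oFL.g.f (rF.g.f _) = oPF.g.f (rP.g.f _)
      rw [hrF, hrP]
      exact (hoFL _).trans ((H.o_eq a).trans (hoPF _).symm)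
    · show oFL.g.f (rF.g.f _) = oPF.g.f (rP.g.f _)
      rw [rF.ev, rP.ev, oFL.ev, oPF.ev]
      refine congrArg H.Om.ev.f (uniqW (ψ := ω.comp ψ) (ψ' := ω.comp χ) h (fun b => ?_)
        (fun j => ?_) (fun j => ?_) a)
      · show ω.f (ψ.f _) = ω.f (χ.f _)
        rw [p1, r1]
        exact (hω _).trans ((H.ε_eq b).trans (hω _).symm)
      · show ω.f (ψ.f _) = ω.f (χ.f _)
        rw [p2, r2]
      · show ω.f (ψ.f _) = ω.f (χ.f _)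
        rw [p3, r3, hω0, Pi.zero_apply, map_zero]

end HX

end Vale.Agent.P216.V775
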