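import Vale.Agent.P216.V775.HEx
import Vale.Agent.P216.V994.Pair
import Vale.Agent.P216.V893.QTw

/-!
# P216-V, C3: the Koszul tower of a pair, `Good` for the two classes

`PTw P T ê`: `T` is a Koszul tower for 994's `Pair P`; `PTw.Kh` the family `ê`, `y₁`, `y₂` the two
closed classes. `HX.classes`: C3 for a pair.
-/

universe u v w'

set_option linter.unusedSectionVars false
set_option linter.checkUnivs false

open MvPolynomial Finset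

namespace Vale.Agent.P216.V775

open Vale.Agent.P216.V609
open Vale.Agent.P216.V994 (Pair Kz Base PD WH)
open Vale.Agent.P216.V706 (ev)
open Vale.Agent.P216.V893 (Qiso)

variable {k : Type w'} [Field k] [CharZero k] {X : CD.{v} k}

/-- the polynomials `Q_j` of a pair -/
noncomputable def pQ (P : Pair X.C) (j : P.σ) : MvPolynomial P.σ k := ∑ i, MvPolynomial.X i * P.Q1 j i

/-- the Koszul system of a pair -/
noncomputable def ofPair (P : Pair X.C) : KS X P.w P.f (pQ P) where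
  x j := P.B.x j
  hx j := P.B.x_mem j
  y := P.B.y
  hy := P.B.y_mem
  dy := P.B.dy
  dx j := P.dx j

theorem qd_pair (P : Pair X.C) : QD P.w P.f (pQ P) P.Q1 :=
  ⟨two_ne_zero, P.hw, P.f_pos, fun _ => rfl, P.wQ1⟩

/-- Koszul towers of a pair -/
abbrev PTw (P : Pair X.C) (T : Tw X) (ê : P.σ → T.top.A) : Prop := KTw P.Q1 (ofPair P) ∅ 0 T ê

theorem exists_PTw (P : Pair X.C) : ∃ (T : Tw X) (ê : P.σ → T.top.A), PTw P T ê := by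
  obtain ⟨T, ê, h, -⟩ := exists_KTw (qd_pair P) (ofPair P)
  exact ⟨T, ê, h⟩

variable {P : Pair X.C} {T : Tw X} {ê : P.σ → T.top.A}

theorem PTw.mem (h : PTw P T ê) (j : P.σ) : ê j ∈ T.top.C.deg (2 * P.w j - 1) :=
  (h.sol₀ (qd_pair P)).mem j (mem_univ j)

theorem PTw.eq (h : PTw P T ê) (j : P.σ) : T.top.C.d (ê j) =
    (P.B.map T.inc).x j + (P.B.map T.inc).y * ∑ i, ê i * ev (P.B.map T.inc).x (P.Q1 j i) :=
  (h.sol₀ (qd_pair P)).eq j (mem_univ j)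

/-- the family of the generators -/
def PTw.Kh (h : PTw P T ê) : Kz (P.B.map T.inc) P.Q1 := Kz.ofEq P.hw ê h.mem h.eq

@[simp] theorem PTw.Kh_u (h : PTw P T ê) (j : P.σ) : h.Kh.u j = ê j := rfl

/-- the first class -/
noncomputable def PTw.y₁ (h : PTw P T ê) : T.top.A := T.inc.f P.z₁ - h.Kh.prim P.p₁

/-- the second class -/
noncomputable def PTw.y₂ (h : PTw P T ê) : T.top.A := T.inc.f P.z₂ - h.Kh.prim P.p₂

/-- the classes are good -/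
theorem PTw.good (h : PTw P T ê) {n : ℕ} {F : MvPolynomial P.σ k}
    (p : PD P.w P.f (n + 1) P.Q1 F) {z : X.A} (hz : z ∈ X.C.deg (2 * n + 1))
    (hdz : X.C.d z = ev P.B.x F) : Good T ê (T.inc.f z - h.Kh.prim p) n := by
  have hZ : T.inc.f z - h.Kh.prim p ∈ T.top.C.Z (2 * n + 1) :=
    h.Kh.sub_prim_mem_Z p P.hw (T.inc.deg hz) (by rw [← T.inc.d, hdz, ← P.B.map_ev])
  refine ⟨hZ.1, hZ.2, fun Y φ φ' hφ => ?_, fun Y φ hφ h0 => ?_⟩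
  · let B' : Base Y.C P.w P.f := (P.B.map T.inc).map φ
    let K₁ : Kz B' P.Q1 := h.Kh.map P.hw φ (fun _ => rfl) rfl
    let K₂ : Kz B' P.Q1 := h.Kh.map P.hw φ' (fun j => (hφ _).symm) (hφ _).symm
    have e1 : φ.f (h.Kh.prim p) = K₁.prim p := Kz.map_prim φ h.Kh K₁ p rfl fun _ => rfl
    have e2 : φ'.f (h.Kh.prim p) = K₂.prim p := Kz.map_prim φ' h.Kh K₂ p (hφ _).symm fun _ => rfl
    refine ⟨K₂.F K₁ p, K₂.F_mem K₁ p P.hw, ?_⟩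
    rw [K₂.d_F K₁ p P.hw, map_sub, map_sub, e1, e2, hφ]
    abel
  · let B' : Base Y.C P.w P.f := (P.B.map T.inc).map φ
    let K₁ : Kz B' P.Q1 := h.Kh.map P.hw φ (fun _ => rfl) rfl
    have e1 : φ.f (h.Kh.prim p) = K₁.prim p := Kz.map_prim φ h.Kh K₁ p rfl fun _ => rfl
    rw [map_sub, e1, K₁.prim_zero p (fun j => h0 j), sub_zero]
    exact hφ _ z hz

theorem PTw.good₁ (h : PTw P T ê) : Good T ê h.y₁ P.n₁ := h.good P.p₁ P.z₁_mem P.dz₁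

theorem PTw.good₂ (h : PTw P T ê) : Good T ê h.y₂ P.n₂ := h.good P.p₂ P.z₂_mem P.dz₂

/-- `HX.main` from a quasi-isomorphism. -/
theorem HX.main' {H : HX.{u, v} k} {σ : Type} [Fintype σ] [DecidableEq σ] {w : σ → ℕ} {f : ℕ}
    {Q : σ → MvPolynomial σ k} {q : σ → σ → MvPolynomial σ k} {S : KS H.X w f Q} {T : Tw H.X}
    {ê : σ → T.top.A} (hq : QD w f Q q) (h : KTw q S ∅ 0 T ê) (hc : Qiso H.cst.g)
    {ω : T.top.Hm H.Xb} (hω : ∀ a, ω.f (T.inc.f a) = H.ε.f a) (hω0 : ∀ j, ω.f (ê j) = 0)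
    (oFL : NMp ω (T.obj H.FL) H.Om)
    (hoFL : ∀ a, oFL.g.f ((T.inj H.FL).f a) = H.oFL.g.f a)
    (oPF : NMp ω (T.obj H.PF) H.Om)
    (hoPF : ∀ a, oPF.g.f ((T.inj H.PF).f a) = H.oPF.g.f a)
    {ŷ : T.top.A} {n : ℕ} (hy : Good T ê ŷ n) :
    ∃ α ∈ (T.obj H.FL).D.Z (2 * n), ∃ β ∈ (T.obj H.PF).D.deg (2 * n),
      (T.obj H.PF).D.d β = (T.obj H.PF).ev.f ŷ ∧ oFL.g.f α = oPF.g.f β :=
  HX.main hq h (fun _ _ ha hb => ((hc.nmap (H.T₀ T)).nmap (H.T₁ T)).inj ha hb) hω hω0 oFL hoFL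
    oPF hoPF hy

/-- **C3 for a pair.** -/
theorem HX.classes {H : HX.{u, v} k} {P : Pair H.X.C} {T : Tw H.X} {ê : P.σ → T.top.A}
    (h : PTw P T ê) (hc : Qiso H.cst.g) {ω : T.top.Hm H.Xb}
    (hω : ∀ a, ω.f (T.inc.f a) = H.ε.f a) (hω0 : ∀ j, ω.f (ê j) = 0)
    (oFL : NMp ω (T.obj H.FL) H.Om)
    (hoFL : ∀ a, oFL.g.f ((T.inj H.FL).f a) = H.oFL.g.f a)
    (oPF : NMp ω (T.obj H.PF) H.Om)
    (hoPF : ∀ a, oPF.g.f ((T.inj H.PF).f a) = H.oPF.g.f a) :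
    ∃ α₁ ∈ (T.obj H.FL).D.Z (2 * P.n₁), ∃ α₂ ∈ (T.obj H.FL).D.Z (2 * P.n₂),
      ∃ β₁ ∈ (T.obj H.PF).D.deg (2 * P.n₁), ∃ β₂ ∈ (T.obj H.PF).D.deg (2 * P.n₂),
      (T.obj H.PF).D.d β₁ = (T.obj H.PF).ev.f h.y₁ ∧
      (T.obj H.PF).D.d β₂ = (T.obj H.PF).ev.f h.y₂ ∧
      oFL.g.f α₁ = oPF.g.f β₁ ∧ oFL.g.f α₂ = oPF.g.f β₂ := by
  obtain ⟨α₁, a1, β₁, b1, c1, d1⟩ := HX.main' (qd_pair P) h hc hω hω0 oFL hoFL oPF hoPF h.good₁
  obtain ⟨α₂, a2, β₂, b2, c2, d2⟩ := HX.main' (qd_pair P) h hc hω hω0 oFL hoFL oPF hoPF h.good₂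
  exact ⟨α₁, a1, α₂, a2, β₁, b1, β₂, b2, c1, c2, d1, d2⟩

end Vale.Agent.P216.V775
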