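import Vale.Agent.P216.V775.GoodB
import Vale.Agent.P216.D239.VTop

/-!
# P216-V: the abstract end of the proof, with towers

`VS`: the bases, the systems of free loops, of paths with a fixed end point and of based loops, the
restrictions, the free paths at every level. `VS.vend`: linear growth and independence are
contradictory.
-/

universe u v w'

set_option linter.unusedSectionVars false
set_option linter.checkUnivs false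

open MvPolynomial Finset

namespace Vale.Agent.P216.V775

open Vale.Agent.P216.V609
open Vale.Agent.P216.V994 (Pair)
open Vale.Agent.P216.V893 (Qiso)

/-- The systems. -/
structure VS (k : Type w') [Field k] where
  X : CD.{v} k
  X₂ : CD.{v} k
  Xb : CD.{v} k
  pr₀ : X.Hm X₂
  pr₁ : X.Hm X₂
  diag : X₂.Hm X
  ptb : X₂.Hm X
  ε : X.Hm Xb
  diag_pr₀ : ∀ a, diag.f (pr₀.f a) = a
  diag_pr₁ : ∀ a, diag.f (pr₁.f a) = a
  ptb_pr₀ : ∀ a, ptb.f (pr₀.f a) = a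
  ptb_pr₁ : ∀ p a, a ∈ X.C.deg (p + 1) → ptb.f (pr₁.f a) = 0
  ε_van : ∀ p a, a ∈ X.C.deg (p + 1) → ε.f a = 0
  ε_eq : ∀ a, ε.f (diag.f a) = ε.f (ptb.f a)
  PP : ℝ → ND.{u} X₂
  MM : ND.{u} X
  FL : NSysO.{u} X
  PF : NSysO.{u} X
  Om : NSysO.{u} Xb
  cst : ∀ t, NMp diag (PP t) MM
  rFL : ∀ t, NMp diag (PP t) (FL.Y t)
  rPF : ∀ t, NMp ptb (PP t) (PF.Y t)
  oFL : ∀ t, NMp ε (FL.Y t) (Om.Y t)
  oPF : ∀ t, NMp ε (PF.Y t) (Om.Y t)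
  o_eq : ∀ t a, (oFL t).g.f ((rFL t).g.f a) = (oPF t).g.f ((rPF t).g.f a)
  oFL_ρ : ∀ s t h a, (oFL t).g.f ((FL.ρ s t h).g.f a) = (Om.ρ s t h).g.f ((oFL s).g.f a)
  oPF_ρ : ∀ s t h a, (oPF t).g.f ((PF.ρ s t h).g.f a) = (Om.ρ s t h).g.f ((oPF s).g.f a)

namespace VS

variable {k : Type w'} [Field k] (V : VS.{u, v} k)

/-- the data at one level -/
def hx (t : ℝ) : HX.{u, v} k where
  X := V.X
  X₂ := V.X₂
  Xb := V.Xb
  pr₀ := V.pr₀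
  pr₁ := V.pr₁
  diag := V.diag
  ptb := V.ptb
  ε := V.ε
  diag_pr₀ := V.diag_pr₀
  diag_pr₁ := V.diag_pr₁
  ptb_pr₀ := V.ptb_pr₀
  ptb_pr₁ := V.ptb_pr₁
  ε_van := V.ε_van
  ε_eq := V.ε_eq
  PP := V.PP t
  MM := V.MM
  FL := V.FL.Y t
  PF := V.PF.Y t
  Om := V.Om.Y t
  cst := V.cst t
  rFL := V.rFL t
  rPF := V.rPF t
  oFL := V.oFL t
  oPF := V.oPF t
  o_eq := V.o_eq t

/-- extension of a restriction to the based loops by `ê ↦ 0` -/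
theorem exists_o (h2 : (2 : k) ≠ 0) {X Xb : CD.{v} k} {ε : X.Hm Xb} {T : Tw X}
    {ω : T.top.Hm Xb} (hω : ∀ a, ω.f (T.inc.f a) = ε.f a) {A : ND.{u} X} {O : ND.{u} Xb}
    (o : NMp ε A O) : ∃ o' : NMp ω (T.obj A) O, ∀ a, o'.g.f ((T.inj A).f a) = o.g.f a :=
  T.exists_nlift h2 ω o.g fun a => by rw [hω, o.ev]

/-- the extensions commute with restrictions -/
theorem o_ρ {X Xb : CD.{v} k} {ε : X.Hm Xb} {T : Tw X} {ω : T.top.Hm Xb} {A B : ND.{u} X}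
    {O O' : ND.{u} Xb} {o : NMp ε A O} {o₁ : NMp ω (T.obj A) O}
    (h₁ : ∀ a, o₁.g.f ((T.inj A).f a) = o.g.f a) {o' : NMp ε B O'} {o₂ : NMp ω (T.obj B) O'}
    (h₂ : ∀ a, o₂.g.f ((T.inj B).f a) = o'.g.f a) {r : NMo A B} {r' : NMo O O'}
    (h : ∀ a, o'.g.f (r.g.f a) = r'.g.f (o.g.f a)) (a : (T.obj A).A) :
    o₂.g.f ((T.omap r).g.f a) = r'.g.f (o₁.g.f a) := by
  refine T.nlift_unique (g := o₂.g.comp (T.omap r).g) (g' := r'.g.comp o₁.g) (fun b => ?_)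
    (fun b => ?_) a
  · show o₂.g.f ((T.omap r).g.f _) = r'.g.f (o₁.g.f _)
    rw [T.omap_inj, h₂, h, h₁]
  · show o₂.g.f ((T.omap r).g.f _) = r'.g.f (o₁.g.f _)
    rw [(T.omap r).ev, o₂.ev, o₁.ev, r'.ev]

/-- **The abstract end of the proof.** -/
theorem vend [CharZero k] (P : Pair V.X.C) {T : Tw V.X} {ê : P.σ → T.top.A} (h : PTw P T ê)
    (hc : ∀ t, 0 < t → Qiso (V.cst t).g) (hS : V.FL.toNSys.LinBd)
    {ω : T.top.Hm V.Xb} (hω : ∀ a, ω.f (T.inc.f a) = V.ε.f a) (hω0 : ∀ j, ω.f (ê j) = 0)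
    {b : ℝ} (hInd : ∀ (N : ℕ) (t : ℝ), b * (N + 1) ≤ t →
      ∀ β₁ ∈ (T.obj (V.PF.Y t)).D.deg (2 * P.n₁), ∀ β₂ ∈ (T.obj (V.PF.Y t)).D.deg (2 * P.n₂),
      (T.obj (V.PF.Y t)).D.d β₁ = (T.obj (V.PF.Y t)).ev.f h.y₁ →
      (T.obj (V.PF.Y t)).D.d β₂ = (T.obj (V.PF.Y t)).ev.f h.y₂ →
      ∀ oPF : NMp ω (T.obj (V.PF.Y t)) (V.Om.Y t),
        (∀ a, oPF.g.f ((T.inj (V.PF.Y t)).f a) = (V.oPF t).g.f a) →
        NIndep (V.Om.Y t).D (oPF.g.f β₁) (oPF.g.f β₂) (2 * P.n₁) (2 * P.n₂) N) : False := by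
  have h2 : (2 : k) ≠ 0 := two_ne_zero
  choose oF hoF using fun t => exists_o h2 hω (V.oFL t)
  choose oP hoP using fun t => exists_o h2 hω (V.oPF t)
  refine D239.vtop (NSysO.tw T V.FL).toNSys (NSysO.linBd_tw T V.FL hS)
    (fun t => (T.obj (V.PF.Y t)).D) (fun t => (V.Om.Y t).D)
    (fun s t h => (T.omap (V.PF.ρ s t h)).g) (fun s t h => (V.Om.ρ s t h).g)
    (fun t => (oF t).g) (fun t => (oP t).g)
    (fun s t h a => o_ρ (hoF s) (hoF t) (r' := V.Om.ρ s t h) (V.oFL_ρ s t h) a)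
    (fun s t h a => o_ρ (hoP s) (hoP t) (r' := V.Om.ρ s t h) (V.oPF_ρ s t h) a)
    (fun t => (T.obj (V.PF.Y t)).ev.f h.y₁) (fun t => (T.obj (V.PF.Y t)).ev.f h.y₂)
    (fun s t h' => (T.omap (V.PF.ρ s t h')).ev _) (fun s t h' => (T.omap (V.PF.ρ s t h')).ev _)
    (p := 2 * P.n₁) (q := 2 * P.n₂) (fun s hs => ?_) (b := b)
    (fun N t ht β₁ hβ₁ β₂ hβ₂ h1 h3 => hInd N t ht β₁ hβ₁ β₂ hβ₂ h1 h3 (oP t) (hoP t))
  exact HX.classes (H := V.hx s) h (hc s hs) hω hω0 (oF s) (hoF s) (oP s) (hoP s)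

end VS

end Vale.Agent.P216.V775
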