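import Vale.Agent.P216.V775.Tower
import Vale.Agent.P216.V706.Tools
import Vale.Agent.P216.H285V.Colim

/-!
# P216-V, V4-TOW: the Koszul tower

`KS X w f Q`: even `x_j` (degree `2 w j`), closed odd `y`, `d x_j = y Q_j(x)`.
`S.att q e j = x_j + y ∑ e_i q_ji(x)`: the differential of `e_j`. `SolOn S q s e`: `d e_j = att j`
for `j ∈ s`. `KTw S q s e T ê`: the tower `T` adjoins the `e_j`, `j ∉ s`, in the order of increasing
weight, `ê` are all the generators in `T.top`.
-/

universe u v w'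

open MvPolynomial Finset
open Vale.Agent.P216.V706 (ev ev_X ev_C ev_comm ev_mem_center)

namespace Vale.Agent.P216.V775

open Vale.Agent.P216.V609
open Vale.Agent.P216.H285V (toDga)

variable {k : Type w'} [Field k] {σ : Type} [Fintype σ] {w : σ → ℕ}

/-- even elements are central -/
def cen (X : CD.{u} k) (x : σ → X.A) (hx : ∀ j, x j ∈ X.C.deg (2 * w j)) :
    σ → Subalgebra.center k X.A := fun j => ⟨x j, Subalgebra.mem_center_iff.2 fun b =>
  (X.C.comm_even (hx j) (even_two_mul _) b).symm⟩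

omit [Fintype σ] in
@[simp] theorem cen_coe (X : CD.{u} k) (x : σ → X.A) (hx : ∀ j, x j ∈ X.C.deg (2 * w j)) (j : σ) :
    (cen X x hx j : X.A) = x j := rfl

omit [Fintype σ] in
theorem map_ev_cen {X : CD.{u} k} {Y : CD.{v} k} (φ : X.Hm Y) (x : σ → X.A)
    (hx : ∀ j, x j ∈ X.C.deg (2 * w j)) (F : MvPolynomial σ k) :
    φ.f (ev (cen X x hx) F) = ev (cen Y (fun j => φ.f (x j)) fun j => φ.deg (hx j)) F := by
  induction F using MvPolynomial.induction_on with
  | C a => rw [ev_C, ev_C, AlgHom.commutes]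
  | add p q hp hq => rw [map_add, map_add, map_add, hp, hq]
  | mul_X p i hp => rw [map_mul, map_mul, map_mul, hp, ev_X, ev_X, cen_coe, cen_coe]

variable {f : ℕ} {Q : σ → MvPolynomial σ k}

/-- A Koszul system. -/
structure KS (X : CD.{u} k) (w : σ → ℕ) (f : ℕ) (Q : σ → MvPolynomial σ k) where
  x : σ → X.A
  hx : ∀ j, x j ∈ X.C.deg (2 * w j)
  y : X.A
  hy : y ∈ X.C.deg (2 * f + 1)
  dy : X.C.d y = 0
  dx : ∀ j, X.C.d (x j) = y * ev (cen X x hx) (Q j)

namespace KS

variable {X : CD.{u} k} {Y : CD.{v} k}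

/-- value of a polynomial at the `x_j` -/
noncomputable def co (S : KS X w f Q) (F : MvPolynomial σ k) : X.A := ev (cen X S.x S.hx) F

/-- image of a system -/
def map (S : KS X w f Q) (φ : X.Hm Y) : KS Y w f Q where
  x j := φ.f (S.x j)
  hx j := φ.deg (S.hx j)
  y := φ.f S.y
  hy := φ.deg S.hy
  dy := φ.d_eq S.dy
  dx j := by rw [← φ.d, S.dx, map_mul, map_ev_cen]

omit [Fintype σ] in
theorem map_co (S : KS X w f Q) (φ : X.Hm Y) (F : MvPolynomial σ k) :
    φ.f (S.co F) = (S.map φ).co F := map_ev_cen φ S.x S.hx F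

omit [Fintype σ] in
theorem co_comm (S : KS X w f Q) (F : MvPolynomial σ k) (a : X.A) : S.co F * a = a * S.co F :=
  ev_comm _ _ _

omit [Fintype σ] in
theorem co_zero (S : KS X w f Q) : S.co 0 = 0 := map_zero _

omit [Fintype σ] in
theorem co_X_mul (S : KS X w f Q) (i : σ) (F : MvPolynomial σ k) :
    S.co (MvPolynomial.X i * F) = S.x i * S.co F := by
  unfold co
  rw [map_mul, ev_X, cen_coe]

omit [Fintype σ] in
theorem y_y (S : KS X w f Q) (h2 : (2 : k) ≠ 0) : S.y * S.y = 0 :=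
  X.C.sq_odd h2 S.hy ⟨_, rfl⟩

omit [Fintype σ] in
theorem sg_y (S : KS X w f Q) : X.C.sg S.y = -S.y := X.C.sg_of_odd S.hy ⟨_, rfl⟩

omit [Fintype σ] in
theorem d_co (S : KS X w f Q) (h2 : (2 : k) ≠ 0) (F : MvPolynomial σ k) :
    ∃ b, X.C.d (S.co F) = S.y * b :=
  ⟨_, (toDga h2 X.C).d_ev S.hx S.dx F⟩

omit [Fintype σ] in
/-- `y * a * d(F(x)) = 0` -/
theorem y_mul_d_co (S : KS X w f Q) (h2 : (2 : k) ≠ 0) (a : X.A) (F : MvPolynomial σ k) :
    S.y * (a * X.C.d (S.co F)) = 0 := by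
  obtain ⟨b, hb⟩ := S.d_co h2 F
  rw [hb]
  have h1 : S.y * a = X.C.sg a * S.y := X.C.comm_odd S.hy ⟨_, rfl⟩ a
  rw [← mul_assoc, h1, mul_assoc, ← mul_assoc S.y, S.y_y h2, zero_mul, mul_zero]

variable (q : σ → σ → MvPolynomial σ k)

/-- the differential of `e_j` -/
noncomputable def att (S : KS X w f Q) (e : σ → X.A) (j : σ) : X.A :=
  S.x j + S.y * ∑ i, e i * S.co (q j i)

theorem map_att (S : KS X w f Q) (φ : X.Hm Y) (e : σ → X.A) (j : σ) :
    φ.f (S.att q e j) = (S.map φ).att q (fun i => φ.f (e i)) j := by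
  unfold att
  rw [map_add, map_mul, map_sum]
  congr 2
  exact sum_congr rfl fun i _ => by rw [map_mul, S.map_co]

variable {q}

/-- only the `e_i` with `q_ji ≠ 0` matter -/
theorem att_congr (S : KS X w f Q) {e e' : σ → X.A} {j : σ} (h : ∀ i, q j i ≠ 0 → e i = e' i) :
    S.att q e j = S.att q e' j := by
  unfold att
  congr 2
  refine sum_congr rfl fun i _ => ?_
  by_cases hi : q j i = 0
  · rw [hi, S.co_zero, mul_zero, mul_zero]
  · rw [h i hi]

end KS

/-- `d e_j = x_j + y ∑ e_i q_ji(x)` for `j ∈ s` -/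
structure SolOn {X : CD.{u} k} (S : KS X w f Q) (q : σ → σ → MvPolynomial σ k) (s : Finset σ)
    (e : σ → X.A) : Prop where
  mem : ∀ j ∈ s, e j ∈ X.C.deg (2 * w j - 1)
  eq : ∀ j ∈ s, X.C.d (e j) = S.att q e j

theorem SolOn.map {X : CD.{u} k} {Y : CD.{v} k} {S : KS X w f Q} {q : σ → σ → MvPolynomial σ k}
    {s : Finset σ} {e : σ → X.A} (h : SolOn S q s e) (φ : X.Hm Y) :
    SolOn (S.map φ) q s fun i => φ.f (e i) :=
  ⟨fun j hj => φ.deg (h.mem j hj), fun j hj => by rw [← φ.d, h.eq j hj, S.map_att]⟩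

/-- the polynomial data -/
structure QD (w : σ → ℕ) (f : ℕ) (Q : σ → MvPolynomial σ k) (q : σ → σ → MvPolynomial σ k) :
    Prop where
  two : (2 : k) ≠ 0
  pos : ∀ j, 1 ≤ w j
  fpos : 1 ≤ f
  hQ : ∀ j, Q j = ∑ i, MvPolynomial.X i * q j i
  wq : ∀ j i s, coeff s (q j i) ≠ 0 → Finsupp.weight w s + (w i + f) = w j

theorem QD.lt {q : σ → σ → MvPolynomial σ k} (h : QD w f Q q) {j i : σ} (hq : q j i ≠ 0) :
    w i < w j := by
  obtain ⟨s, hs⟩ := MvPolynomial.ne_zero_iff.1 hq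
  have h1 := h.wq j i s hs
  have h2 := h.fpos
  omega

section step

variable {X : CD.{u} k} {S : KS X w f Q} {q : σ → σ → MvPolynomial σ k} {s : Finset σ}
  {e : σ → X.A}

omit [Fintype σ] in
/-- degrees of the values of the coefficients -/
theorem mul_co_mem (S : KS X w f Q) (h2 : (2 : k) ≠ 0) {F : MvPolynomial σ k} {r N m M : ℕ}
    (hF : ∀ s, coeff s F ≠ 0 → Finsupp.weight w s + r = N) {a : X.A} (ha : a ∈ X.C.deg m)
    (h : m + 2 * N = M + 2 * r) : a * S.co F ∈ X.C.deg M := by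
  by_cases hF0 : F = 0
  · rw [hF0, S.co_zero, mul_zero]
    exact Submodule.zero_mem _
  · obtain ⟨s, hs⟩ := MvPolynomial.ne_zero_iff.1 hF0
    have h1 := hF s hs
    have h3 : IsWeightedHomogeneous w F (Finsupp.weight w s) := by
      intro t ht
      have := hF t ht
      omega
    have h4 := (toDga h2 X.C).ev_mem (x := cen X S.x S.hx) S.hx h3
    have h5 := X.C.mul_mem ha h4
    have h6 : m + 2 * Finsupp.weight w s = M := by omega
    rw [← h6]
    exact h5

theorem att_mem (hq : QD w f Q q) {j : σ} (he : ∀ i, q j i ≠ 0 → e i ∈ X.C.deg (2 * w i - 1)) :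
    S.att q e j ∈ X.C.deg (2 * w j) := by
  refine Submodule.add_mem _ (S.hx j) ?_
  rw [mul_sum]
  refine Submodule.sum_mem _ fun i _ => ?_
  by_cases hi : q j i = 0
  · rw [hi, S.co_zero, mul_zero, mul_zero]
    exact Submodule.zero_mem _
  · rw [← mul_assoc]
    refine mul_co_mem S hq.two (hq.wq j i) (X.C.mul_mem S.hy (he i hi)) ?_
    have := hq.pos i
    omega

theorem d_att (hq : QD w f Q q) {j : σ} (he : ∀ i, q j i ≠ 0 → e i ∈ X.C.deg (2 * w i - 1) ∧
    X.C.d (e i) = S.att q e i) : X.C.d (S.att q e j) = 0 := by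
  unfold KS.att
  rw [map_add, S.dx, X.C.leib, S.dy, zero_mul, zero_add, S.sg_y, neg_mul, ← sub_eq_add_neg,
    sub_eq_zero, map_sum, mul_sum, hq.hQ j]
  show S.y * ev (cen X S.x S.hx) (∑ i, MvPolynomial.X i * q j i) = _
  rw [map_sum, mul_sum]
  refine sum_congr rfl fun i _ => ?_
  show S.y * S.co (MvPolynomial.X i * q j i) = _
  by_cases hi : q j i = 0
  · rw [hi, mul_zero, S.co_zero, mul_zero, mul_zero, map_zero, mul_zero]
  · obtain ⟨h1, h2⟩ := he i hi
    rw [S.co_X_mul, X.C.leib, mul_add, S.y_mul_d_co hq.two, add_zero, h2]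
    unfold KS.att
    rw [add_mul, mul_add, mul_assoc S.y (∑ i', e i' * S.co (q i i')), ← mul_assoc S.y S.y,
      S.y_y hq.two, zero_mul, add_zero]

end step

omit [Fintype σ] in
theorem KS.ext' {X : CD.{u} k} {S S' : KS X w f Q} (hx : ∀ j, S.x j = S'.x j) (hy : S.y = S'.y) :
    S = S' := by
  obtain ⟨x, _, y, _, _, _⟩ := S
  obtain ⟨x', _, y', _, _, _⟩ := S'
  obtain rfl : x = x' := funext hx
  obtain rfl : y = y' := hy
  rfl

/-- `s` is closed downwards -/
def Dn (w : σ → ℕ) (s : Finset σ) : Prop := ∀ j ∈ s, ∀ i, w i < w j → i ∈ s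

variable [DecidableEq σ]

/-- The partial generators after one more step. -/
def nxt {X : CD.{u} k} (e : σ → X.A) (j : σ) : σ → Ex k X.C :=
  Function.update (fun i => Ex.inl X.C (e i)) j (Ex.e X.C)

omit [Fintype σ] in
theorem nxt_self {X : CD.{u} k} (e : σ → X.A) (j : σ) : nxt e j j = Ex.e X.C :=
  Function.update_self ..

omit [Fintype σ] in
theorem nxt_ne {X : CD.{u} k} (e : σ → X.A) {j i : σ} (h : i ≠ j) :
    nxt e j i = Ex.inl X.C (e i) := Function.update_of_ne h ..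

/-- the inclusion as a morphism -/
abbrev CD.inl (X : CD.{u} k) {l : ℕ} (hl : Odd l) {x : X.A} (hx : x ∈ X.C.deg (l + 1))
    (hdx : X.C.d x = 0) : X.Hm (X.ex hl hx hdx) := Cdga.inlHom X.C hl hx hdx

/-- **Koszul towers**: `T` adjoins the `e_j`, `j ∉ s`, in the order of increasing weight; `ê` are
the generators in the top. -/
inductive KTw (q : σ → σ → MvPolynomial σ k) : {X : CD.{u} k} → KS X w f Q → Finset σ →
    (σ → X.A) → (T : Tw X) → (σ → T.top.A) → Prop
  | done {X : CD.{u} k} (S : KS X w f Q) (e : σ → X.A) : KTw q S univ e (.nil X) e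
  | step {X : CD.{u} k} (S : KS X w f Q) (s : Finset σ) (e : σ → X.A) (j : σ) (hj : j ∉ s)
      (hmin : ∀ i, w i < w j → i ∈ s) (hl : Odd (2 * w j - 1)) (c : X.A)
      (hc : c = S.att q e j) (hx : c ∈ X.C.deg (2 * w j - 1 + 1)) (hdx : X.C.d c = 0)
      (T : Tw (X.ex hl hx hdx)) (ê : σ → T.top.A)
      (h : KTw q (S.map (X.inl hl hx hdx)) (insert j s) (nxt e j) T ê) :
      KTw q S s e (.cons X (2 * w j - 1) hl c hx hdx T) ê

section

variable {q : σ → σ → MvPolynomial σ k}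

omit [Fintype σ] in
theorem Dn.insert {s : Finset σ} (hs : Dn w s) {j : σ} (hmin : ∀ i, w i < w j → i ∈ s) :
    Dn w (insert j s) := by
  intro j' hj' i hi
  rcases mem_insert.1 hj' with rfl | h
  · exact mem_insert_of_mem (hmin i hi)
  · exact mem_insert_of_mem (hs j' h i hi)

/-- the differential of the next generators -/
theorem att_nxt (hq : QD w f Q q) {X : CD.{u} k} (S : KS X w f Q) {s : Finset σ} {e : σ → X.A}
    {j : σ} (hj : j ∉ s) {j' : σ} (hj' : ∀ i, w i < w j' → i ∈ s) {l : ℕ} (hl : Odd l) {c : X.A}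
    (hx : c ∈ X.C.deg (l + 1)) (hdx : X.C.d c = 0) :
    (S.map (X.inl hl hx hdx)).att q (nxt e j) j' = Ex.inl X.C (S.att q e j') := by
  have h1 : (Ex.inl X.C) (S.att q e j') =
      (S.map (X.inl hl hx hdx)).att q (fun i => Ex.inl X.C (e i)) j' :=
    S.map_att q (X.inl hl hx hdx) e j'
  rw [h1]
  refine KS.att_congr _ fun i hi => ?_
  have h2 := hj' i (hq.lt hi)
  exact nxt_ne e (fun h => hj (h ▸ h2))

theorem SolOn.nxt (hq : QD w f Q q) {X : CD.{u} k} {S : KS X w f Q} {s : Finset σ} {e : σ → X.A}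
    (hs : Dn w s) (he : SolOn S q s e) {j : σ} (hj : j ∉ s) (hmin : ∀ i, w i < w j → i ∈ s)
    (hl : Odd (2 * w j - 1)) {c : X.A} (hc : c = S.att q e j)
    (hx : c ∈ X.C.deg (2 * w j - 1 + 1)) (hdx : X.C.d c = 0) :
    SolOn (S.map (X.inl hl hx hdx)) q (insert j s) (nxt e j) := by
  have hne : ∀ j' ∈ s, j' ≠ j := fun j' h' h => hj (h ▸ h')
  constructor
  · intro j' hj'
    rcases mem_insert.1 hj' with rfl | h
    · rw [nxt_self]
      exact X.C.e_mem hl hx hdx
    · rw [nxt_ne e (hne j' h)]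
      exact (X.inl hl hx hdx).deg (he.mem j' h)
  · intro j' hj'
    rcases mem_insert.1 hj' with rfl | h
    · rw [nxt_self, att_nxt hq S hj hmin]
      exact (X.C.d_e hl hx hdx).trans (by rw [hc])
    · rw [nxt_ne e (hne j' h), att_nxt hq S hj (hs j' h), ← he.eq j' h]
      exact ((X.inl hl hx hdx).d (e j')).symm

/-- **Existence of the Koszul tower.** -/
theorem exists_KTw_aux (hq : QD w f Q q) (n : ℕ) : ∀ {X : CD.{u} k} (S : KS X w f Q)
    (s : Finset σ) (e : σ → X.A), Dn w s → SolOn S q s e → (univ \ s).card = n →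
    ∃ (T : Tw X) (ê : σ → T.top.A), KTw q S s e T ê := by
  induction n with
  | zero =>
    intro X S s e hs he hn
    obtain rfl : s = univ := by
      have := card_eq_zero.1 hn
      exact univ_subset_iff.1 (sdiff_eq_empty_iff_subset.1 this)
    exact ⟨.nil X, e, .done S e⟩
  | succ n ih =>
    intro X S s e hs he hn
    have hne : (univ \ s).Nonempty := card_pos.1 (by omega)
    obtain ⟨j, hj, hmin⟩ := exists_min_image (univ \ s) w hne
    have hj' : j ∉ s := (mem_sdiff.1 hj).2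
    have hmin' : ∀ i, w i < w j → i ∈ s := fun i hi => by
      by_contra h
      exact absurd (hmin i (mem_sdiff.2 ⟨mem_univ i, h⟩)) (by omega)
    have hwj := hq.pos j
    have hl : Odd (2 * w j - 1) := ⟨w j - 1, by omega⟩
    have h1 : ∀ i, q j i ≠ 0 → i ∈ s := fun i hi => hmin' i (hq.lt hi)
    have hx : S.att q e j ∈ X.C.deg (2 * w j - 1 + 1) := by
      have := att_mem (S := S) (e := e) hq (j := j) fun i hi => he.mem i (h1 i hi)
      rwa [show 2 * w j - 1 + 1 = 2 * w j by omega]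
    have hdx : X.C.d (S.att q e j) = 0 := d_att hq fun i hi => ⟨he.mem i (h1 i hi),
      he.eq i (h1 i hi)⟩
    obtain ⟨T, ê, h⟩ := ih (S.map (X.inl hl hx hdx)) (insert j s) (nxt e j) (hs.insert hmin')
      (he.nxt hq hs hj' hmin' hl rfl hx hdx) (by
        have e1 : univ \ insert j s = (univ \ s).erase j := by
          ext i
          simp only [mem_sdiff, mem_univ, true_and, mem_insert, mem_erase, not_or]
        rw [e1, card_erase_of_mem hj, hn]
        rfl)
    exact ⟨.cons X (2 * w j - 1) hl _ hx hdx T, ê, .step S s e j hj' hmin' hl _ rfl hx hdx T ê h⟩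

variable {X : CD.{u} k} {S : KS X w f Q} {s : Finset σ} {e : σ → X.A} {T : Tw X} {ê : σ → T.top.A}

theorem KTw.sol (hq : QD w f Q q) (h : KTw q S s e T ê) (hs : Dn w s) (he : SolOn S q s e) :
    SolOn (S.map T.inc) q univ ê := by
  induction h with
  | done S e => exact he.map (Cdga.Hom.id _)
  | step S s e j hj hmin hl c hc hx hdx T ê h ih =>
    exact ih (hs.insert hmin) (he.nxt hq hs hj hmin hl hc hx hdx)

theorem KTw.inc_eq (h : KTw q S s e T ê) : ∀ j ∈ s, ê j = T.inc.f (e j) := by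
  induction h with
  | done S e => exact fun j _ => rfl
  | step S s e j hj hmin hl c hc hx hdx T ê h ih =>
    intro j' hj'
    rw [ih j' (mem_insert_of_mem hj'), nxt_ne e (ne_of_mem_of_not_mem hj' hj)]
    rfl

/-- **Universal property.** -/
theorem KTw.lift (hq : QD w f Q q) (h : KTw q S s e T ê) {Y : CD.{v} k} (φ : X.Hm Y)
    {u : σ → Y.A} (hu : SolOn (S.map φ) q univ u) (he : ∀ j ∈ s, φ.f (e j) = u j) :
    ∃ φ' : T.top.Hm Y, (∀ a, φ'.f (T.inc.f a) = φ.f a) ∧ ∀ j, φ'.f (ê j) = u j := by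
  induction h with
  | done S e => exact ⟨φ, fun _ => rfl, fun j => he j (mem_univ j)⟩
  | step S s e j hj hmin hl c hc hx hdx T ê h ih =>
    have h1 : Y.C.d (u j) = φ.f c := by
      rw [hu.eq j (mem_univ j), hc, S.map_att]
      exact (KS.att_congr _ fun i hi => he i (hmin i (hq.lt hi))).symm
    let φ₁ := φ.exLift hq.two hl hx hdx (hu.mem j (mem_univ j)) h1
    have h2 : ∀ a, φ₁.f (Ex.inl _ a) = φ.f a := fun a => by
      show φ.f a + φ.f 0 * u j = φ.f a
      rw [map_zero, zero_mul, add_zero]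
    have e1 : (S.map (CD.inl _ hl hx hdx)).map φ₁ = S.map φ :=
      KS.ext' (fun i => h2 _) (h2 _)
    obtain ⟨φ', h3, h4⟩ := ih φ₁ (by rw [e1]; exact hu) (fun i hi => by
      rcases mem_insert.1 hi with rfl | h
      · rw [nxt_self]
        show φ.f 0 + φ.f 1 * u i = u i
        rw [map_zero, map_one, zero_add, one_mul]
      · rw [nxt_ne e (ne_of_mem_of_not_mem h hj), h2, he i h])
    exact ⟨φ', fun a => (h3 _).trans (h2 a), h4⟩

/-- **Uniqueness.** -/
theorem KTw.lift_unique (h : KTw q S s e T ê) {Y : CD.{v} k} {φ ψ : T.top.Hm Y}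
    (h1 : ∀ a, φ.f (T.inc.f a) = ψ.f (T.inc.f a)) (h2 : ∀ j, φ.f (ê j) = ψ.f (ê j)) (a : T.top.A) :
    φ.f a = ψ.f a := by
  induction h with
  | done S e => exact h1 a
  | step S s e j hj hmin hl c hc hx hdx T ê h ih =>
    refine ih (φ := φ) (ψ := ψ) (fun b => ?_) h2 a
    have h3 : T.inc.f (Ex.e _) = ê j := by
      rw [h.inc_eq j (mem_insert_self j s), nxt_self]
    have h4 : ∀ χ : T.top.Hm Y, χ.f (T.inc.f b) = χ.f (T.inc.f (Ex.inl _ b.1)) +
        χ.f (T.inc.f (Ex.inl _ b.2)) * χ.f (ê j) := fun χ => by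
      conv_lhs => rw [Ex.eq_inl_add b, map_add, map_mul, map_add, map_mul, h3]
    refine (h4 φ).trans (Eq.trans ?_ (h4 ψ).symm)
    exact congrArg₂ (· + ·) (h1 b.1) (congrArg₂ (· * ·) (h1 b.2) (h2 j))

/-- **Base change.** -/
theorem KTw.push (h : KTw q S s e T ê) {Y : CD.{v} k} (φ : X.Hm Y) :
    KTw q (S.map φ) s (fun i => φ.f (e i)) (T.push φ) fun i => (T.map φ).f (ê i) := by
  induction h generalizing Y with
  | done S e => exact .done _ _
  | step S s e j hj hmin hl c hc hx hdx T ê h ih =>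
    have h1 := ih (φ.ex hl hx hdx)
    have e1 : (S.map (CD.inl _ hl hx hdx)).map (φ.ex hl hx hdx) =
        (S.map φ).map (Y.inl hl (φ.deg hx) (φ.d_eq hdx)) :=
      KS.ext' (fun i => Ex.ext rfl (map_zero _)) (Ex.ext rfl (map_zero _))
    have e2 : (fun i => (φ.ex hl hx hdx).f (nxt e j i)) = nxt (fun i => φ.f (e i)) j := by
      funext i
      by_cases hi : i = j
      · subst hi
        rw [nxt_self, nxt_self]
        exact Ex.ext (map_zero _) (map_one _)
      · rw [nxt_ne e hi, nxt_ne _ hi]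
        exact Ex.ext rfl (map_zero _)
    rw [e1, e2] at h1
    exact .step (S.map φ) s _ j hj hmin hl (φ.f c) (by rw [hc, S.map_att]) (φ.deg hx)
      (φ.d_eq hdx) _ _ h1

/-- **The Koszul tower** with all its properties. -/
theorem exists_KTw (hq : QD w f Q q) {X : CD.{u} k} (S : KS X w f Q) :
    ∃ (T : Tw X) (ê : σ → T.top.A), KTw q S ∅ 0 T ê ∧ SolOn (S.map T.inc) q univ ê := by
  have h0 : SolOn S q ∅ (0 : σ → X.A) := ⟨fun j hj => absurd hj (notMem_empty j),
    fun j hj => absurd hj (notMem_empty j)⟩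
  have h1 : Dn w (∅ : Finset σ) := fun j hj => absurd hj (notMem_empty j)
  obtain ⟨T, ê, h⟩ := exists_KTw_aux hq _ S ∅ 0 h1 h0 rfl
  exact ⟨T, ê, h, h.sol hq h1 h0⟩

/-- the generators of a complete Koszul tower -/
theorem KTw.sol₀ (hq : QD w f Q q) (h : KTw q S ∅ 0 T ê) : SolOn (S.map T.inc) q univ ê :=
  h.sol hq (fun j hj => absurd hj (notMem_empty j)) ⟨fun j hj => absurd hj (notMem_empty j),
    fun j hj => absurd hj (notMem_empty j)⟩

/-- the universal property of a complete Koszul tower -/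
theorem KTw.lift₀ (hq : QD w f Q q) (h : KTw q S ∅ 0 T ê) {Y : CD.{v} k} (φ : X.Hm Y)
    {u : σ → Y.A} (hu : SolOn (S.map φ) q univ u) :
    ∃ φ' : T.top.Hm Y, (∀ a, φ'.f (T.inc.f a) = φ.f a) ∧ ∀ j, φ'.f (ê j) = u j :=
  h.lift hq φ hu fun j hj => absurd hj (notMem_empty j)

/-- base change of a complete Koszul tower -/
theorem KTw.push₀ (h : KTw q S ∅ 0 T ê) {Y : CD.{v} k} (φ : X.Hm Y) :
    KTw q (S.map φ) ∅ 0 (T.push φ) fun i => (T.map φ).f (ê i) := by
  have h1 := h.push φ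
  have e1 : (fun i => φ.f ((0 : σ → X.A) i)) = 0 := funext fun i => map_zero _
  rwa [e1] at h1

end

end Vale.Agent.P216.V775
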