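import Vale.Agent.P216.V609.Rank

/-!
# P216-V, V4-TOW: towers of odd generators

`CD k`: bundled cdgas. `Tw X`: a finite sequence of extensions `X ⟨e₁⟩ ⟨e₂⟩ …` by odd generators,
`T.top` is the last algebra. `T.push φ`: base change along `φ : X → Y`, `T.map φ : T.top →
(T.push φ).top`. Transfer: properties which are stable under one extension hold for towers.
-/

universe u v w

namespace Vale.Agent.P216.V775

open Vale.Agent.P216.V609

/-- Bundled cdgas. -/
structure CD (k : Type w) [Field k] where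
  A : Type u
  [rA : Ring A]
  [aA : Algebra k A]
  C : Cdga k A

attribute [instance] CD.rA CD.aA

variable {k : Type w} [Field k]

/-- Morphisms of bundled cdgas. -/
abbrev CD.Hm (X : CD.{u} k) (Y : CD.{v} k) := Cdga.Hom X.C Y.C

/-- One extension. -/
abbrev CD.ex (X : CD.{u} k) {l : ℕ} (hl : Odd l) {x : X.A} (hx : x ∈ X.C.deg (l + 1))
    (hdx : X.C.d x = 0) : CD.{u} k := ⟨Ex k X.C, X.C.ex hl hx hdx⟩

theorem CD.Hm.d_eq {X : CD.{u} k} {Y : CD.{v} k} (φ : X.Hm Y) {x : X.A} (hdx : X.C.d x = 0) :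
    Y.C.d (φ.f x) = 0 := by rw [← φ.d, hdx, map_zero]

/-- base change of one extension -/
abbrev CD.Hm.ex {X : CD.{u} k} {Y : CD.{v} k} (φ : X.Hm Y) {l : ℕ} (hl : Odd l) {x : X.A}
    (hx : x ∈ X.C.deg (l + 1)) (hdx : X.C.d x = 0) :
    (X.ex hl hx hdx).Hm (Y.ex hl (φ.deg hx) (φ.d_eq hdx)) :=
  φ.exMap hl hx hdx (φ.deg hx) (φ.d_eq hdx) rfl

/-- A tower of extensions of `X` by odd generators. -/
inductive Tw : CD.{u} k → Type (max (u + 1) w)
  | nil (X : CD.{u} k) : Tw X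
  | cons (X : CD.{u} k) (l : ℕ) (hl : Odd l) (x : X.A) (hx : x ∈ X.C.deg (l + 1))
      (hdx : X.C.d x = 0) (T : Tw (X.ex hl hx hdx)) : Tw X

namespace Tw

/-- the last algebra of the tower -/
def top : {X : CD.{u} k} → Tw X → CD.{u} k
  | X, .nil _ => X
  | _, .cons _ _ _ _ _ _ T => T.top

/-- the inclusion of the base -/
def inc : {X : CD.{u} k} → (T : Tw X) → X.Hm T.top
  | X, .nil _ => Cdga.Hom.id X.C
  | X, .cons _ _ hl _ hx hdx T => T.inc.comp (Cdga.inlHom X.C hl hx hdx)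

/-- base change -/
def push : {X : CD.{u} k} → (T : Tw X) → {Y : CD.{v} k} → X.Hm Y → Tw Y
  | _, .nil _, Y, _ => .nil Y
  | _, .cons _ l hl x hx hdx T, Y, φ =>
    .cons Y l hl (φ.f x) (φ.deg hx) (φ.d_eq hdx) (T.push (φ.ex hl hx hdx))

/-- the map of a tower to its base change -/
def map : {X : CD.{u} k} → (T : Tw X) → {Y : CD.{v} k} → (φ : X.Hm Y) → T.top.Hm (T.push φ).top
  | _, .nil _, _, φ => φ
  | _, .cons _ _ hl _ hx hdx T, _, φ => T.map (φ.ex hl hx hdx)

/-- concatenation of towers -/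
def append : {X : CD.{u} k} → (T : Tw X) → Tw T.top → Tw X
  | _, .nil _, T' => T'
  | _, .cons X l hl x hx hdx T, T' => .cons X l hl x hx hdx (T.append T')

theorem top_append {X : CD.{u} k} (T : Tw X) (T' : Tw T.top) : (T.append T').top = T'.top := by
  induction T with
  | nil X => rfl
  | cons X l hl x hx hdx T ih => exact ih T'

@[simp] theorem top_nil (X : CD.{u} k) : (Tw.nil X).top = X := rfl

@[simp] theorem top_cons (X : CD.{u} k) (l : ℕ) (hl : Odd l) (x : X.A) (hx : x ∈ X.C.deg (l + 1))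
    (hdx : X.C.d x = 0) (T : Tw (X.ex hl hx hdx)) : (Tw.cons X l hl x hx hdx T).top = T.top := rfl

theorem map_inc {X : CD.{u} k} (T : Tw X) {Y : CD.{v} k} (φ : X.Hm Y) (a : X.A) :
    (T.map φ).f (T.inc.f a) = (T.push φ).inc.f (φ.f a) := by
  induction T generalizing Y with
  | nil X => rfl
  | cons X l hl x hx hdx T ih =>
    refine (ih (φ.ex hl hx hdx) (Ex.inl X.C a)).trans ?_
    show (T.push (φ.ex hl hx hdx)).inc.f _ = (T.push (φ.ex hl hx hdx)).inc.f _
    congr 1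
    ext
    · rfl
    · exact map_zero _

/-- **Transfer for algebras**: a property which is stable under one extension holds for the top. -/
theorem top_rec (R : CD.{u} k → Prop) (hR : ∀ (X : CD.{u} k) (l : ℕ) (hl : Odd l) (x : X.A)
    (hx : x ∈ X.C.deg (l + 1)) (hdx : X.C.d x = 0), R X → R (X.ex hl hx hdx)) {X : CD.{u} k}
    (T : Tw X) (h : R X) : R T.top := by
  induction T with
  | nil X => exact h
  | cons X l hl x hx hdx T ih => exact ih (hR X l hl x hx hdx h)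

/-- **Transfer for maps.** -/
theorem map_rec (R : ∀ {X : CD.{u} k} {Y : CD.{v} k}, X.Hm Y → Prop)
    (hR : ∀ (X : CD.{u} k) (Y : CD.{v} k) (φ : X.Hm Y) (l : ℕ) (hl : Odd l) (x : X.A)
      (hx : x ∈ X.C.deg (l + 1)) (hdx : X.C.d x = 0), R φ → R (φ.ex hl hx hdx))
    {X : CD.{u} k} {Y : CD.{v} k} (T : Tw X) (φ : X.Hm Y) (h : R φ) : R (T.map φ) := by
  induction T generalizing Y with
  | nil X => exact h
  | cons X l hl x hx hdx T ih => exact ih (φ.ex hl hx hdx) (hR X Y φ l hl x hx hdx h)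

/-- **Transfer for the inclusion** of the base. -/
theorem inc_rec (R : ∀ {X Y : CD.{u} k}, X.Hm Y → Prop) {X : CD.{u} k} (T : Tw X)
    (hid : ∀ X : CD.{u} k, R (Cdga.Hom.id X.C))
    (hR : ∀ (X Y : CD.{u} k) (l : ℕ) (hl : Odd l) (x : X.A) (hx : x ∈ X.C.deg (l + 1))
      (hdx : X.C.d x = 0) (ψ : (X.ex hl hx hdx).Hm Y), R ψ →
        R (ψ.comp (Cdga.inlHom X.C hl hx hdx))) : R T.inc := by
  induction T with
  | nil X => exact hid X
  | cons X l hl x hx hdx T ih => exact hR X T.top l hl x hx hdx T.inc ih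

end Tw

/-! ### Systems over a base -/

/-- A system of cdgas over the base `X` (609's `Sys` with the base unbundled). -/
structure SysO (X : CD.{v} k) where
  Y : ℝ → CD.{u} k
  ev : ∀ t, X.Hm (Y t)
  ρ : ∀ s t, t ≤ s → (Y s).Hm (Y t)
  ρ_ev : ∀ s t h a, (ρ s t h).f ((ev s).f a) = (ev t).f a
  ρ_ρ : ∀ s t r h h' a, (ρ t r h').f ((ρ s t h).f a) = (ρ s r (h'.trans h)).f a

namespace SysO

variable {X : CD.{v} k} (S : SysO.{u} X)

/-- 609's system -/
def toSys : Sys k where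
  M := X.A
  CM := X.C
  A t := (S.Y t).A
  C t := (S.Y t).C
  ev := S.ev
  ρ := S.ρ
  ρ_ev := S.ρ_ev
  ρ_ρ := S.ρ_ρ

/-- one extension of the system -/
def ex {l : ℕ} (hl : Odd l) {x : X.A} (hx : x ∈ X.C.deg (l + 1)) (hdx : X.C.d x = 0) :
    SysO.{u} (X.ex hl hx hdx) where
  Y t := (S.Y t).ex hl ((S.ev t).deg hx) ((S.ev t).d_eq hdx)
  ev t := (S.ev t).ex hl hx hdx
  ρ s t h := (S.ρ s t h).exMap hl ((S.ev s).deg hx) ((S.ev s).d_eq hdx) ((S.ev t).deg hx)
    ((S.ev t).d_eq hdx) (S.ρ_ev s t h x)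
  ρ_ev s t h a := by
    ext
    · exact S.ρ_ev s t h _
    · exact S.ρ_ev s t h _
  ρ_ρ s t u h h' a := by
    ext
    · exact S.ρ_ρ s t u h h' _
    · exact S.ρ_ρ s t u h h' _

theorem ex_toSys {l : ℕ} (hl : Odd l) {x : X.A} (hx : x ∈ X.C.deg (l + 1)) (hdx : X.C.d x = 0) :
    (S.ex hl hx hdx).toSys = S.toSys.ext hl hx hdx := rfl

/-- the system over the top of a tower -/
def tw : {X : CD.{v} k} → (T : Tw X) → SysO.{u} X → SysO.{u} T.top
  | _, .nil _, S => S
  | _, .cons _ _ hl _ hx hdx T, S => tw T (S.ex hl hx hdx)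

/-- linear growth passes to towers -/
theorem linBd_tw {X : CD.{v} k} (T : Tw X) (S : SysO.{u} X) (h : S.toSys.LinBd) :
    (tw T S).toSys.LinBd := by
  induction T with
  | nil X => exact h
  | cons X l hl x hx hdx T ih => exact ih (S.ex hl hx hdx) (h.ext hl hx hdx)

end SysO

end Vale.Agent.P216.V775
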